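import Vale.Agent.P014T.Kt.All0
import Vale.Agent.P014T.Tp.Tws
import Vale.Agent.P014T.Tp.Lgi
import Vale.Agent.P014T.Tv.Inv
import Vale.Agent.P004M.All
import Vale.Agent.P004T.All
import Vale.Agent.P004R.All
import Vale.Agent.P004C.All

/-! # P014T, block KTOP: closed form -/

set_option linter.all false

namespace Vale.Agent.P014T.Kt

theorem kk_all : Top.KK :=
  kk0 (C := fun a => ¬ P004T.Irr a ∨ P004T.Irr a) (fun _ => (Classical.em _).symm)
    (pair P004F.crv P004F.z_fld (P004R.anchor_red.or P004C.anchor_irr) P004S.smith P004T.iso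
      P004T.loc2 (P004T.Gw.gwk2_of P004T.Gw.cntk P004T.Gw.lim))
    (Top.modn P004M.modular) Top.twa Tv.inv

end Vale.Agent.P014T.Kt
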