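import Vale.Agent.P014T.Lk.Mod

/-! # P014T, row KAN: values, the sign, Euler factors -/

set_option autoImplicit false
set_option linter.all false

open Complex Set MeasureTheory
open UpperHalfPlane hiding I
open scoped NumberTheorySymbols Real

noncomputable section

namespace Vale.Agent.P014T.Kt.An

open P004N P004N.T8 P004N.H169 Lk
open P014T.An (M0 M1 qs Gd)

variable {E : WeierstrassCurve ℚ} {N M m : ℕ} {G : ℍ → ℂ} {a : ℕ → ℤ} {L : ℂ → ℂ} {ε : ℝ}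
  {T : Finset ℕ}

/-- **a simple zero gives the sign** -/
theorem sign {b : ℕ → ℝ} (h : NF N G b ε) (g : Gd fun n => (b n : ℂ)) (h0 : M0 (fun n => (b n : ℂ)) = 0)
    (h1 : M1 (fun n => (b n : ℂ)) ≠ 0) : ε = 1 :=
  (P014T.An.sign h.pos g h.qe h.al).2 h0 h1

/-- **the values of the depleted function** -/
theorem vl (h : RN N G a) (k : At E a M) (hT : ∀ p ∈ T, p.Prime)
    (hM : ∀ p : ℕ, p.Prime → p ∣ M → p ∈ T) (hL : IsLh (inc (∏ p ∈ T, p) (cE E)) L) :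
    L 1 = (∏ p ∈ T, P1 (fun n => (a n : ℝ)) p : ℝ) * M0 (fun n => (a n : ℂ)) ∧
    (analyticOrderAt L 1 = 1 → M0 (fun n => (a n : ℂ)) = 0 ∧ M1 (fun n => (a n : ℂ)) ≠ 0 ∧
      deriv L 1 = (∏ p ∈ T, P1 (fun n => (a n : ℝ)) p : ℝ) * M1 (fun n => (a n : ℂ))) := by
  have s0 : ∏ p ∈ T, p ≠ 0 := Finset.prod_ne_zero_iff.2 fun p m => (hT p m).ne_zero
  have k' : At E a (∏ p ∈ T, p) := ⟨s0, fun n c => k.2 n (Nat.coprime_of_dvd fun p hp d1 d2 =>
    hp.one_lt.ne' (Nat.eq_one_of_dvd_coprimes c d1 (Finset.dvd_prod_of_mem _ (hM p hp d2))))⟩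
  rw [k'.inc] at hL
  obtain ⟨F, f, c⟩ := rn_lh h
  obtain ⟨-, o, l⟩ := eul (rn_ldr h) s0 (fun p hp _ => rn_le h hp) f hL
  obtain ⟨v0, v1⟩ := c.val (rn_gd h)
  rw [Nat.primeFactors_prod hT] at l
  refine ⟨by simpa [v0] using l 0 (by simp), fun e => ?_⟩
  obtain ⟨z0, z1⟩ := (c.ord (rn_gd h)).2.1 (o ▸ e)
  have := l 1 (by rw [← o, e]; simp)
  rw [iteratedDeriv_one, iteratedDeriv_one, v1 (v0.trans z0)] at this
  exact ⟨z0, z1, this⟩

/-- **the Euler factors of a twist** -/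
theorem eu (h : RN (N * m ^ 2) G fun n => a n * J(n | m)) (m1 : 1 < m) (hT : ∀ p ∈ T, p.Prime)
    {l : List ℕ} (nd : l.Nodup) (hl : ∀ p, p ∈ l ↔ p ∈ T ∧ ¬ p ∣ m) {s : ℕ → ℤ}
    (hs : ∀ p ∈ l, J(p | m) = s p) :
    l.prod * ∏ p ∈ T, P1 (fun n => ((a n * J(n | m) : ℤ) : ℝ)) p =
      ((l.map fun p => p - a p * s p + if p ∣ N then 0 else 1).prod : ℤ) := by
  have e : l.toFinset = T.filter fun p => ¬ p ∣ m := by ext p; simp [hl]
  rw [← List.prod_toFinset _ nd, show l.prod = ∏ p ∈ l.toFinset, id p by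
      rw [List.prod_toFinset _ nd, List.map_id],
    ← Finset.prod_filter_mul_prod_filter_not T (· ∣ m), Finset.prod_eq_one (s := T.filter (· ∣ m)),
    one_mul, ← e]
  · push_cast
    rw [← Finset.prod_mul_distrib]
    refine Finset.prod_congr rfl fun p k => ?_
    have k' := List.mem_toFinset.1 k
    obtain ⟨k1, k2⟩ := (hl p).1 k'
    have q : (p : ℝ) ≠ 0 := Nat.cast_ne_zero.2 (hT p k1).ne_zero
    have := P1_rn h (hT p k1)
    push_cast at this
    rw [this, hs p k', if_congr ((hT p k1).dvd_mul.trans (or_iff_left fun d =>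
      k2 ((hT p k1).dvd_of_dvd_pow d))) rfl rfl, id]
    field_simp
    ring
  · intro p k
    obtain ⟨k1, k2⟩ := Finset.mem_filter.1 k
    have q : (p : ℝ) ≠ 0 := Nat.cast_ne_zero.2 (hT p k1).ne_zero
    have : NeZero m := ⟨by omega⟩
    rw [P1_rn h (hT p k1), if_pos ((dvd_pow k2 two_ne_zero).mul_left _),
      jacobiSym.eq_zero_iff_not_coprime.2 (by
        rw [Int.gcd_natCast_natCast, Nat.gcd_eq_left k2]; exact (hT p k1).one_lt.ne')]
    simp [q]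

end Vale.Agent.P014T.Kt.An
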