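import Vale.Agent.P014T.Kt.An0
import Vale.Agent.P014T.Kt.An1
import Vale.Agent.P014T.Zd.Exp
import Vale.Agent.P014T.Kx.Tw
import Vale.Agent.P014T.Kx.Tr1
import Vale.Agent.P014T.Ht.Iso
import Vale.Agent.P004F.Ch.Irr
import Vale.Agent.P004K.Rc.All
import Vale.Agent.P004S.Lt
import Vale.Agent.P004Z.Ar.Aro
import Vale.Agent.P004Z.Fin.Int
import Vale.Agent.P004Z.Th.Gau

/-! # P014T, row KAN: the index of the Heegner point of the frame -/

set_option autoImplicit false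
set_option linter.all false

open NumberField
open scoped NumberTheorySymbols Real Classical

noncomputable section

namespace Vale.Agent.P014T.Kt.An

open Vale.Agent.P022 (Qb GQ)
open Vale.Agent.P022E.GW (Ov Fb)
open Vale.Agent.P014 (realPeriod)
open P004F P004F.Es Sm Lk Cn Kx.Tw
open P004F.Qx (Fk)
open P004T (ds ds_spec)
open P004N (cE)
open P004N.T8 (inc)
open P004N.H169 (IsLh)
open P004M.TE (Pt ga ga_mul al)
open P004Z.H (hh)
open Wm (Fx)
open Kx (nd Tw)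
open Zd (pK GZF)

variable {P : Ideal (𝓞 Qb)} {φ : GQ} {p δ : ℕ}

theorem two_dvd (o : Ov 2 P) {m : ℤ} (h : (m : 𝓞 Qb) ∈ P) : 2 ∣ m := by_contra fun c => by
  obtain ⟨k, rfl⟩ : ∃ k, m = 2 * k + 1 := ⟨m / 2, by omega⟩
  refine o.2.1.ne_top ((Ideal.eq_top_iff_one _).2 ?_)
  simpa using P.sub_mem h (P.mul_mem_right (k : 𝓞 Qb) o.2.2)

theorem sd_two (o : Ov 2 P) (f : Fb 2 P φ) {d : ℤ} (h : d % 4 = 1) :
    sd d φ = if d % 8 = 1 then 1 else -1 := by
  have hβ := rt_sq d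
  have hm : (d : Qb) = 4 * (d / 4 : ℤ) + 1 := by
    exact_mod_cast congrArg (Int.cast : ℤ → Qb) (show d = 4 * (d / 4) + 1 by omega)
  have e1 : (rt d - 1) / 2 * ((rt d - 1) / 2 + 1) = (d / 4 : ℤ) := by
    linear_combination (hβ + hm) / 4
  let y : 𝓞 Qb := ⟨(rt d - 1) / 2, Polynomial.X ^ 2 + (Polynomial.X - Polynomial.C (d / 4)),
    Polynomial.monic_X_pow_add (by
      rw [Polynomial.degree_X_sub_C]; exact_mod_cast one_lt_two), by
      rw [Polynomial.eval₂_add, Polynomial.eval₂_sub, Polynomial.eval₂_X_pow, Polynomial.eval₂_X,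
        Polynomial.eval₂_C, eq_intCast, ← e1]
      ring⟩
  have e2 : y * (y + 1) = (d / 4 : ℤ) := RingOfIntegers.ext (e1.trans (by simp))
  have k := f y
  have g := ga_rt d φ
  rcases sd_or d φ with s | s <;> rw [s] at g ⊢
  · rw [show φ • y = y from RingOfIntegers.ext (by
      show φ ((rt d - 1) / 2) = (rt d - 1) / 2
      rw [map_div₀, map_sub, g, map_one, map_ofNat]; simp)] at k
    have := two_dvd o (m := d / 4) (by
      convert P.sub_mem (P.mul_mem_right y o.2.2) k using 1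
      rw [← e2]; push_cast; ring)
    rw [if_pos (by omega)]
  · rw [show φ • y = -(y + 1) from RingOfIntegers.ext (by
      show φ ((rt d - 1) / 2) = -((rt d - 1) / 2 + 1)
      rw [map_div₀, map_sub, g, map_one, map_ofNat]; push_cast; ring)] at k
    have := two_dvd o (m := d / 4 + 1) (by
      convert P.neg_mem k using 1
      push_cast
      rw [← e2]; ring)
    rw [if_neg (by omega)]

/-- the genus character at a Frobenius element -/
theorem sd_fb (o : Ov p P) (f : Fb p P φ) (ho : Odd δ) (h : ¬ p ∣ δ) : J(p | δ) = sd (ds δ) φ := by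
  obtain ⟨e1, e2⟩ := ds_spec ho
  rcases eq_or_ne p 2 with rfl | p2
  · have := Nat.odd_iff.1 ho
    rw [sd_two o f e1, Nat.cast_ofNat, jacobiSym.at_two ho, ZMod.χ₈_nat_eq_if_mod_eight,
      if_neg (by omega)]
    exact if_congr (by omega) rfl rfl
  have : Fact p.Prime := ⟨o.1⟩
  have k := P004S.sg_frob o p2 (d := ds δ) (fun c => h (e2 ▸ Int.natCast_dvd.1 c)) f
  rw [jacobiSym.legendreSym.to_jacobiSym, jac e1 (o.1.odd_of_ne_two p2), e2] at k
  refine Int.cast_injective (α := ℚ_[2]) (k.symm.trans ?_)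
  unfold P004S.sg sd
  split_ifs <;> simp

theorem ell {E : WeierstrassCurve ℚ} {A B : ℤ} {u r s t : ℚ} (h : Md E A B u r s t)
    (hD : 4 * A ^ 3 + 27 * B ^ 2 ≠ 0) : E.IsElliptic := ⟨isUnit_iff_ne_zero.2 fun e => hD (by
  have := Md.disc h
  rw [e, mul_zero] at this
  exact_mod_cast (mul_eq_zero.1 this).resolve_left (by norm_num))⟩

variable (e : Crv)

theorem pr : ∀ p ∈ e.S.toFinset, p.Prime := fun p m => (e.ov p (List.mem_toFinset.1 m)).1

theorem al_a (hp : p.Prime) (h : p ∉ e.S) : al e.A e.B p = e.a p := by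
  have : Fact p.Prime := ⟨hp⟩
  obtain ⟨g, hg⟩ := P022.H20.exists_isFrob hp
  have k := (P004M.TE.frob_mt (hq e.par.disc) (Ch.good e hp h) hg).1
  rw [(e.bad p hp h).2.2 g hg] at k
  rw [P004M.TE.al_eq (Ch.good e hp h)]
  exact_mod_cast k.symm

/-- the coefficients of a twist -/
theorem at_tw {E : WeierstrassCurve ℚ} {m : ℕ} (ho : Odd m) {A B : ℤ} (hA : A = e.A * ds m ^ 2)
    (hB : B = e.B * ds m ^ 3) (h : Md E A B 1 0 0 0) : ∃ M, At E (fun n => e.a n * J(n | m)) (M * m) ∧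
      ∀ p : ℕ, p.Prime → p ∣ M → p ∈ e.S := by
  subst hA hB
  have m0 : ds m ≠ 0 := fun c => by have := ds_spec ho; omega
  have h0 : Md (⟨0, 0, 0, e.A, e.B⟩ : WeierstrassCurve ℚ) e.A e.B 1 0 0 0 := Vc.Ch.refl _
  have := ell h0 e.par.disc
  have := ell h ((tq m0 _ _).hD e.par.disc)
  have s0 : ∏ p ∈ e.S.toFinset, p ≠ 0 := Finset.prod_ne_zero_iff.2 fun p m => (pr e p m).ne_zero
  have b : bd e.A e.B ∣ e.N * bd e.A e.B * ∏ p ∈ e.S.toFinset, p := (dvd_mul_left _ _).mul_right _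
  refine ⟨_, At.ds h0 ho h (at_of h0 e.rn (mul_ne_zero (mul_ne_zero e.rn.pos.ne'
    (bd_ne e.par.disc)) s0) ((dvd_mul_right _ _).mul_right _) b fun p hp k => al_a e hp fun c =>
      k ((Finset.dvd_prod_of_mem _ (List.mem_toFinset.2 c)).mul_left _)) b, fun p hp k => ?_⟩
  by_contra c
  rcases hp.dvd_mul.1 k with k | k
  · exact (hp.dvd_mul.1 k).elim (fun k => (e.bad p hp c).1 (k.mul_right _))
      fun k => Ch.good e hp c (Int.natCast_dvd.2 k)
  · exact c (List.mem_toFinset.1 (Nat.primeFactors_prod (pr e) ▸ Nat.mem_primeFactors.2 ⟨hp, k, s0⟩))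

variable {e} (b : Fld e) {T : Finset GQ}

theorem ga_pK (hT : b.Tv e.δ T) {g : GQ} (hg : g ∈ b.Γ) :
    ga g (pK b T) = sd (ds e.δ) g • pK b T := by
  have f := Kx.T1.fr P004K.x_rc1 P004K.x_rc2 b one_pos (T := T) (by simpa using hT)
  rw [mul_one] at f
  rw [pK, map_sum, ← f.sum (p := fun u => sd (ds e.δ) u • ga u (b.Y e.δ)) (fun u a h m => by
    rw [f.psi a m, ga_mul, b.fx _ e.ok.odd.pos e.ok.cop.symm h m]) hg, Finset.smul_sum]
  exact Finset.sum_congr rfl fun u _ => by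
    rw [map_zsmul, sd_mul, smul_smul, ← mul_assoc, sd_sq, one_mul, ga_mul]

/-- from the field to the rationals -/
theorem desc {A B A' B' : ℤ} (q : Tq (-b.δ') A B A' B') (fin : Finite (Fx A' B' ⊤)) {y : Pt A B}
    (hy : y ∈ Fx A B b.Γ) : y + ga b.c y ∈ Fx A B ⊤ ∧ IsOfFinAddOrder (y - ga b.c y) := by
  have c := Ch.c_out b
  have i : ∀ g ∈ b.Γ, ga g (ga b.c y) = ga b.c y := fun g k => by
    rw [← ga_mul, show g * b.c = b.c * (b.c⁻¹ * g * b.c⁻¹⁻¹) by group, ga_mul,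
      hy _ (Ch.gk_conj b _ k)]
  have o : ∀ g ∉ b.Γ, ga g y = ga b.c y ∧ ga g (ga b.c y) = y := fun g k =>
    ⟨by rw [show g = b.c * (b.c⁻¹ * g) by group, ga_mul,
      hy _ (Ch.mul_out b (fun m => c (inv_mem_iff.1 m)) k)],
    by rw [← ga_mul, hy _ (Ch.mul_out b k c)]⟩
  refine ⟨fun g _ => ?_, (tw q).injective.isOfFinAddOrder_iff (f := (tw q).toAddMonoidHom).1
    ((Fx A' B' ⊤).subtype.isOfFinAddOrder (isOfFinAddOrder_of_finite ⟨_, fun g _ => ?_⟩))⟩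
  · by_cases k : g ∈ b.Γ
    · rw [map_add, hy g k, i g k]
    · rw [map_add, (o g k).1, (o g k).2, add_comm]
  · change ga g (tw q _) = tw q _
    rw [ga_tw, map_sub]
    by_cases k : g ∈ b.Γ
    · rw [hy g k, i g k, sd_eq_one.2 ((Ch.gk b).1 k), one_smul]
    · rw [(o g k).1, (o g k).2, (sd_or _ g).resolve_left fun s => k ((Ch.gk b).2 (sd_eq_one.1 s)),
        neg_smul, one_smul, ← map_neg, neg_sub]

/-- **the analytic half** -/
theorem kan0 (gz : GZF) {A B A' B' : ℤ} {E E' : WeierstrassCurve ℚ} (h : Md E A B 1 0 0 0)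
    (h' : Md E' A' B' 1 0 0 0) {L L' : ℂ → ℂ} {Q : Fin 1 → E.toAffine.Point} (hT : b.Tv e.δ T)
    (q : Tq (ds e.δ) e.A e.B A B) (q' : Tq (-b.δ') A B A' B')
    (hL : IsLh (inc (∏ p ∈ e.S.toFinset, p) (cE E)) L) (o : analyticOrderAt L 1 = 1)
    (hL' : IsLh (inc (∏ p ∈ e.S.toFinset ∪ b.δ'.primeFactors, p) (cE E')) L')
    (hQ : IsBasisModTorsion E Q) (fin : Finite (Fx A' B' ⊤)) :
    tw q (pK b T) ∈ Fx A B b.Γ ∧ ∃ n : ℤ, IsOfFinAddOrder (2 • tw q (pK b T) - n • up h (Q 0)) ∧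
      2 * (if 4 * A ^ 3 + 27 * B ^ 2 < 0 then 2 else 1 : ℕ) * (e.S'.prod : ℂ) ^ 4 *
        (deriv L 1 * L' 1) = (n * nd b) ^ 2 * (realPeriod E * regulator E Q * realPeriod E' : ℝ) := by
  have : NeZero e.N := ⟨e.rn.pos.ne'⟩
  have ok := e.ok
  have d0 := ok.odd.pos
  have d1 := Ch.dl_pos b
  have m8 := b.adm.m8
  obtain ⟨du, -, -, ep, -, hJ, -⟩ := P004Z.gau_row e.N e.δ b.δ' b.β b.dat
  have hD := q.hD e.par.disc
  have := ell h hD
  have hy : tw q (pK b T) ∈ Fx A B b.Γ := fun g k => by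
    rw [ga_tw, ga_pK b hT k, map_zsmul, smul_smul, sd_sq, one_smul]
  obtain ⟨y1, y2⟩ := desc b q' fin hy
  obtain ⟨y, e0⟩ : _ ∈ (up h).range := range_up h ▸ y1
  obtain ⟨n, hn⟩ := (basis_one.1 hQ).2 y
  have tor : IsOfFinAddOrder (2 • tw q (pK b T) - n • up h (Q 0)) := by
    have := ((up h).isOfFinAddOrder hn).add y2
    rwa [map_sub, map_zsmul, e0, sub_add_eq_add_sub, add_add_sub_cancel, ← two_nsmul] at this
  refine ⟨hy, n, tor, ?_⟩
  obtain ⟨V, hV⟩ := P004Z.Ar.ex_plc P004Z.Fin.ext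
  have pl := Gl.pl_vq hV
  have ht : 8 * hh (Gl.vq V) (pK b T) = n ^ 2 * regulator E Q := by
    have a := Hi.hh_add pl (Wm.hD_Qb hD) tor (n • up h (Q 0))
    rw [add_sub_cancel, hh_nsmul pl (Wm.hD_Qb hD), hh_zsmul pl (Wm.hD_Qb hD),
      Hi.hh_lin pl (Wm.hD_Qb hD) (Wm.hD_Qb e.par.disc) (tw q) (w := ds e.δ) (r := 0)
        (Int.cast_ne_zero.2 q.ne) fun y k => by rw [xp_tw q k, add_zero]] at a
    rw [reg_one, can_eq pl h]
    push_cast at a
    linarith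
  obtain ⟨ε, nf⟩ := P004Z.Ar.nf_of_rn e.rn
  obtain ⟨G₁, n1⟩ := nf_tw nf ok.odd ok.sq ok.cop
  have r1 := P004T.rn_of_nf n1
  obtain ⟨G₀, r0⟩ := rn_tw e.rn du.ok1.odd du.ok1.sq du.ok1.cop
  obtain ⟨M₁, a1, s1⟩ := at_tw e ok.odd q.a q.b h
  have dd : ds (e.δ * b.δ') = ds e.δ * -b.δ' := by
    rw [ds, ds, P004Z.eps, jacobiSym.mul_right' _ d0.ne' d1.ne', ← P004Z.eps, ← P004Z.eps, ep]
    push_cast
    ring
  obtain ⟨M₀, a0, s0⟩ := at_tw e du.ok1.odd (dd ▸ (q.trans q').a) (dd ▸ (q.trans q').b) h'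
  have sd : ∀ p : ℕ, p.Prime → p ∣ e.δ → p ∈ e.S := fun p hp k =>
    by_contra fun c => (e.bad p hp c).1 (k.mul_left _)
  have pr' : ∀ p ∈ e.S.toFinset ∪ b.δ'.primeFactors, p.Prime := fun p m =>
    (Finset.mem_union.1 m).elim (pr e p) Nat.prime_of_mem_primeFactors
  obtain ⟨z0, z1, l1⟩ := (vl r1 a1 (pr e) (fun p hp k => List.mem_toFinset.2
    ((hp.dvd_mul.1 k).elim (s1 p hp) (sd p hp))) hL).2 o
  have l0 := (vl r0 a0 pr' (fun p hp k => Finset.mem_union.2 ((hp.dvd_mul.1 k).elim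
    (fun k => .inl (List.mem_toFinset.2 (s0 p hp k))) fun k => (hp.dvd_mul.1 k).imp
      (fun k => List.mem_toFinset.2 (sd p hp k))
      fun k => Nat.mem_primeFactors.2 ⟨hp, k, d1.ne'⟩)) hL').1
  have sg := sign n1 (by simpa only [Complex.ofReal_intCast] using rn_gd r1)
    (by simpa only [Complex.ofReal_intCast] using z0)
    (by simpa only [Complex.ofReal_intCast] using z1)
  rw [← neg_one_mul, jacobiSym.mul_left, ← P004Z.eps] at sg
  have ms : ∀ p, p ∈ e.S' ↔ p ∈ e.S.toFinset ∧ ¬ p ∣ e.δ := fun p => by simp [Crv.S']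
  have fb : ∀ p ∈ e.S', J(p | e.δ) = P004F.sd (ds e.δ) (b.φ p) := fun p k =>
    have m := List.mem_toFinset.1 ((ms p).1 k).1
    sd_fb (e.ov p m) (b.ch.frb p m) ok.odd ((ms p).1 k).2
  have u1 := eu r1 ok.one (pr e) (l := e.S') (e.nd.filter _) ms fb
  have u0 := eu r0 du.ok1.one pr' (l := e.S') (e.nd.filter _) (fun p => (ms p).trans
    ⟨fun k => ⟨Finset.mem_union_left _ k.1, fun c => ((pr e p k.1).dvd_mul.1 c).elim k.2 fun c =>
      (Ch.not_mem_S b (pr e p k.1) c).2 (List.mem_toFinset.1 k.1)⟩,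
    fun k => ⟨(Finset.mem_union.1 k.1).resolve_right fun c =>
      k.2 ((Nat.dvd_of_mem_primeFactors c).mul_left _), fun c => k.2 (c.mul_right _)⟩⟩)
    (s := fun p => P004F.sd (ds e.δ) (b.φ p)) fun p k => by
      have m := ((ms p).1 k).1
      rw [jacobiSym.mul_right' _ d0.ne' d1.ne', fb p k, show J(p | b.δ') = 1 from ?_, mul_one]
      rcases eq_or_ne p 2 with rfl | p2
      · rw [Nat.cast_ofNat, jacobiSym.at_two (Nat.odd_iff.2 (by omega)),
          ZMod.χ₈_nat_eq_if_mod_eight, if_neg (by omega), if_pos (by omega)]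
      · rw [← hJ p ((pr e p m).odd_of_ne_two p2), b.adm.spl p (List.mem_toFinset.1 m) p2]
  obtain ⟨u, v, cv, pe⟩ := per e.par.lat e.par.g2_eq e.par.g3_eq q.ne d1 q.a q.b q'.a q'.b h h'
  have g := gz e b ε _ V T nf.al sg ⟨u, v, cv, rfl⟩ hV hT
  rw [(ds_spec ok.odd).2] at pe
  have n0 : (e.δ * (√b.δ' : ℝ) : ℂ) ≠ 0 := mul_ne_zero (Nat.cast_ne_zero.2 d0.ne')
    (Complex.ofReal_ne_zero.2 (Real.sqrt_pos.2 (Nat.cast_pos.2 d1)).ne')
  change _ = _ * (2 * π * Zd.L1d e.a e.δ) at l1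
  change _ = _ * (2 * π * Z.L0 e.a (e.δ * b.δ')) at l0
  rw [l1, l0, Kx.nd]
  generalize (e.S'.map fun p => p - e.a p * P004F.sd (ds e.δ) (b.φ p) +
    if p ∣ e.N then 0 else 1).prod = F at u1 u0 ⊢
  generalize ∏ p ∈ e.S.toFinset, P1 _ p = X at u1 ⊢
  generalize ∏ p ∈ e.S.toFinset ∪ b.δ'.primeFactors, P1 _ p = X' at u0 ⊢
  generalize |((starRingEnd ℂ) u * v).im| = c at g pe
  generalize e.S'.prod = R at u1 u0 ⊢
  have u1' := congrArg Complex.ofReal u1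
  have u0' := congrArg Complex.ofReal u0
  have pe' := congrArg Complex.ofReal pe
  have ht' := congrArg Complex.ofReal ht
  refine mul_left_cancel₀ n0 ?_
  generalize hk : (if 4 * A ^ 3 + 27 * B ^ 2 < 0 then 2 else 1 : ℕ) = k
  rw [show (if 4 * A ^ 3 + 27 * B ^ 2 < 0 then 2 else 1 : ℝ) = k by
    rw [← hk]; split_ifs <;> simp] at pe'
  push_cast at u1' u0' pe' ht' g ⊢
  rw [← u1'] at u0' ⊢
  linear_combination -8 * k * R ^ 4 * X * X' * g + 2 * k * c * e.w ^ 2 * R ^ 4 * X * X' * ht' -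
    n ^ 2 * e.w ^ 2 * R ^ 4 * X ^ 2 * regulator E Q * pe' +
    2 * k * c * e.w ^ 2 * R ^ 3 * X * n ^ 2 * regulator E Q * u0'

end Vale.Agent.P014T.Kt.An
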