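import Vale.Agent.P014T.Kt.St
import Vale.Agent.P014T.Kt.An2

/-! # P014T, row KAN -/

set_option linter.all false

open scoped Classical

namespace Vale.Agent.P014T.Kt

open Kx.Tw P004T

/-- **row `KAN`** -/
theorem kan (gz : Zd.GZF) : KAN := fun e b T A B A' B' h L L' Q hT a1 b1 a0 b0 hL o hL' hQ fin => by
  obtain ⟨e1, -⟩ := ds_spec e.ok.odd
  have q : Tq (ds e.δ) e.A e.B A B := ⟨by omega, a1, b1⟩
  have q' : Tq (-b.δ') A B A' B' := ⟨by have := b.adm.m8; omega, a0, b0⟩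
  have h' : Sm.Md (Lc.Wq (Top.sI A' B')) A' B' 1 0 0 0 := by
    refine ⟨one_ne_zero, ?_, ?_, ?_, ?_, ?_⟩ <;> simp [Top.sI, Lc.Wq]
  obtain ⟨k1, n, k2, k3⟩ := An.kan0 b gz h h' hT q q' hL o hL' hQ fin
  exact ⟨tw q, tw q', n, fun g y => by rw [ga_tw, map_zsmul], fun g y => by rw [ga_tw, map_zsmul],
    fk_tw q (e.ov 2 e.two).2.1 fun c => by have := An.two_dvd (e.ov 2 e.two) c; omega, k1, k2, k3⟩

end Vale.Agent.P014T.Kt
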