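import Vale.Agent.P014T.Kt.Kk
import Vale.Agent.P014T.Kt.An
import Vale.Agent.P014T.Zd.All
import Vale.Agent.P014T.Kx.All
import Vale.Agent.P004F.All

/-! # P014T, block KTOP: the wiring -/

set_option linter.all false

namespace Vale.Agent.P014T.Kt

open Vale.Agent.P004K Vale.Agent.P004F Top

theorem kk0 {C : (ℕ → ℤ) → Prop} (hC : ∀ a, C a) (h1 : PAIR C) (h2 : MODN) (h3 : TWA) (h4 : INV) :
    KK :=
  kk hC h1 h2 h3 h4 (z_pat z_es) kg Zd.gzf_all (kan Zd.gzf_all) Kx.kx_all Qx.fg x_rc1 x_rc2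

end Vale.Agent.P014T.Kt
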