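import Vale.Agent.P014T.Rp.Per
import Vale.Agent.P014T.Ht.Sh

/-! # P014T, row KAN: the periods of a pair of twists -/

set_option autoImplicit false
set_option linter.all false

open Complex
open scoped ComplexConjugate

noncomputable section

namespace Vale.Agent.P014T.Kt.An

open P027H P014 Sm

variable {E E' : WeierstrassCurve ℚ} {A B : ℤ} {Λ : Submodule ℤ ℂ}

/-- the real period of a short model -/
theorem rp1 (h : Md E A B 1 0 0 0) (hΛ : IsLat Λ) (h2 : g2 Λ = -4 * A) (h3 : g3 Λ = -4 * B) :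
    ∃ w v : ℝ, 0 < w ∧ 0 < v ∧ (∀ z, z ∈ Λ ↔ ∃ m n : ℤ,
      z = m * w + n * ((if 4 * A ^ 3 + 27 * B ^ 2 < 0 then 0 else w / 2 : ℝ) + v * I)) ∧
    realPeriod E = (if 4 * A ^ 3 + 27 * B ^ 2 < 0 then 2 else 1) * w := by
  obtain ⟨-, -, -, a, b⟩ := Md.eq h
  have a' := congrArg (Rat.cast : ℚ → ℂ) a
  have b' := congrArg (Rat.cast : ℚ → ℂ) b
  have d : 0 < E.Δ ↔ 4 * A ^ 3 + 27 * B ^ 2 < 0 := by
    have := Md.disc h
    rw [← Int.cast_lt (R := ℚ)]
    push_cast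
    constructor <;> intro <;> linarith
  have := Rp.rp E hΛ one_pos (by rw [h2]; push_cast at a' ⊢; linear_combination -4 * a')
    (by rw [h3]; push_cast at b' ⊢; linear_combination -4 * b')
  simpa only [d, one_mul] using this

/-- **the product of the periods is the covolume** -/
theorem per (hΛ : IsLat Λ) (h2 : g2 Λ = -4 * A) (h3 : g3 Λ = -4 * B) {d : ℤ} (d0 : d ≠ 0) {k : ℕ}
    (k0 : 0 < k) {A₁ B₁ A₀ B₀ : ℤ} (a1 : A₁ = A * d ^ 2) (b1 : B₁ = B * d ^ 3)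
    (a0 : A₀ = A₁ * (-k) ^ 2) (b0 : B₀ = B₁ * (-k) ^ 3) (h : Md E A₁ B₁ 1 0 0 0)
    (h' : Md E' A₀ B₀ 1 0 0 0) : ∃ u v : ℂ, (∀ z, z ∈ Λ ↔ ∃ m n : ℤ, z = m * u + n * v) ∧
      d.natAbs * √k * (realPeriod E * realPeriod E') =
        2 * (if 4 * A₁ ^ 3 + 27 * B₁ ^ 2 < 0 then 2 else 1) * |(conj u * v).im| := by
  obtain ⟨μ, hμ⟩ := IsAlgClosed.exists_pow_nat_eq (d : ℂ) two_pos
  have μ0 : μ ≠ 0 := by
    rintro rfl
    exact d0 (by exact_mod_cast hμ.symm.trans (zero_pow two_ne_zero))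
  have s0 : 0 < √(k : ℝ) := Real.sqrt_pos.2 (Nat.cast_pos.2 k0)
  have ν2 : ((√(k : ℝ) : ℝ) * I) ^ 2 = -(k : ℂ) := by
    rw [mul_pow, I_sq, ← ofReal_pow, Real.sq_sqrt (Nat.cast_nonneg _)]
    simp
  have ν0 : (√(k : ℝ) : ℝ) * I ≠ 0 := mul_ne_zero (ofReal_ne_zero.2 s0.ne') I_ne_zero
  have H1 := hom_scl (inv_ne_zero μ0) Λ
  have H0 := hom_scl (inv_ne_zero ν0) (scl μ⁻¹ Λ)
  have g21 : g2 (scl μ⁻¹ Λ) = -4 * A₁ := by
    rw [H1.g2, h2, inv_inv, a1]; push_cast; rw [← hμ]; ring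
  have g31 : g3 (scl μ⁻¹ Λ) = -4 * B₁ := by
    rw [H1.g3, h3, inv_inv, b1]; push_cast; rw [← hμ]; ring
  obtain ⟨w, v, w0, v0, m1, p1⟩ := rp1 h (H1.isLat hΛ) g21 g31
  obtain ⟨w', v', w0', v0', m0, p0⟩ := rp1 h' (H0.isLat (H1.isLat hΛ))
    (by rw [H0.g2, g21, inv_inv, a0]; push_cast; rw [← ν2]; ring)
    (by rw [H0.g3, g31, inv_inv, b0]; push_cast; rw [← ν2]; ring)
  have sg : 4 * A₀ ^ 3 + 27 * B₀ ^ 2 < 0 ↔ 4 * A₁ ^ 3 + 27 * B₁ ^ 2 < 0 := by
    rw [show 4 * A₀ ^ 3 + 27 * B₀ ^ 2 = k ^ 6 * (4 * A₁ ^ 3 + 27 * B₁ ^ 2) by rw [a0, b0]; ring]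
    have : (0 : ℤ) < k ^ 6 := by positivity
    exact ⟨fun e => by_contra fun c => absurd e (not_lt.2 (mul_nonneg this.le (not_lt.1 c))),
      mul_neg_of_pos_of_neg this⟩
  simp only [sg] at m0 p0
  have key : (if 4 * A₁ ^ 3 + 27 * B₁ ^ 2 < 0 then 2 else 1) * (√k * w') = 2 * v := by
    obtain ⟨m, n, e⟩ := (m1 _).1 (mem_scl.1 ((m0 w').2 ⟨1, 0, by simp⟩))
    obtain ⟨m', n', e'⟩ := (m0 (((if 4 * A₁ ^ 3 + 27 * B₁ ^ 2 < 0 then 1 else 2) * v / √k : ℝ))).1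
      (mem_scl.2 ((m1 _).2 (by
        rw [inv_inv]
        have : ((√(k : ℝ) : ℝ) : ℂ) ≠ 0 := ofReal_ne_zero.2 s0.ne'
        split_ifs
        · exact ⟨0, 1, by push_cast; field_simp; ring⟩
        · exact ⟨-1, 2, by push_cast; field_simp; ring⟩)))
    rw [inv_inv] at e
    have e1 := congrArg re e
    have e2 := congrArg im e
    have e3 := congrArg re e'
    have e4 := congrArg im e'
    simp only [mul_re, mul_im, add_re, add_im, ofReal_re, ofReal_im, I_re, I_im, intCast_re,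
      intCast_im, mul_zero, zero_mul, mul_one, add_zero, zero_add, sub_zero] at e1 e2 e3 e4
    obtain rfl : n' = 0 := by exact_mod_cast (mul_eq_zero.1 e4.symm).resolve_right v0'.ne'
    rw [Int.cast_zero, zero_mul, add_zero, div_eq_iff s0.ne', mul_assoc, mul_comm w', e2] at e3
    have n0 : 0 < n := by
      have : (0 : ℝ) < n * v := e2 ▸ mul_pos s0 w0'
      exact_mod_cast (mul_pos_iff_of_pos_right v0).1 this
    rw [e2]
    split_ifs at e1 e3 ⊢
    · have : (m' * n : ℤ) = 1 := by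
        have := mul_right_cancel₀ v0.ne' ((mul_assoc _ _ _).trans e3.symm)
        exact_mod_cast this
      rw [Int.eq_one_of_mul_eq_one_left n0.le this]
      simp
    · have h1 : (m' * n : ℤ) = 2 := by
        have := mul_right_cancel₀ v0.ne' ((mul_assoc _ _ _).trans e3.symm)
        exact_mod_cast this
      have h2 : 2 * m + n = 0 := by
        have : (2 * m + n : ℝ) * w = 0 := by linear_combination -2 * e1
        exact_mod_cast (mul_eq_zero.1 this).resolve_right w0.ne'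
      have h3 := Int.le_of_dvd two_pos (Dvd.intro_left _ h1)
      obtain rfl : n = 2 := by omega
      simp
  refine ⟨μ * w, μ * ((if 4 * A₁ ^ 3 + 27 * B₁ ^ 2 < 0 then 0 else w / 2 : ℝ) + v * I),
    fun z => ((H1.2 z).trans (m1 _)).trans (exists₂_congr fun m n => ?_), ?_⟩
  · rw [inv_mul_eq_iff_eq_mul₀ μ0]
    exact Eq.congr_right (by ring)
  have n : normSq μ = d.natAbs := by
    rw [normSq_eq_norm_sq, ← norm_pow, hμ, norm_intCast, Nat.cast_natAbs, Int.cast_abs]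
  rw [map_mul, mul_mul_mul_comm (conj μ), ← normSq_eq_conj_mul_self, n, conj_ofReal, p1, p0]
  simp only [mul_im, add_im, add_re, mul_re, ofReal_re, ofReal_im, I_re, I_im, mul_zero, zero_mul,
    mul_one, add_zero, zero_add, sub_zero]
  rw [abs_of_nonneg (by positivity)]
  linear_combination d.natAbs * (if 4 * A₁ ^ 3 + 27 * B₁ ^ 2 < 0 then 2 else 1) * w * key

end Vale.Agent.P014T.Kt.An
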