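import Vale.Agent.P014T.St
import Vale.Agent.P014T.Lc.Jx
import Vale.Agent.P014T.Lc.V2
import Vale.Agent.P014T.Bt.Rk
import Vale.Agent.P014T.Sh.Br
import Vale.Agent.P014T.Ht.Can

/-! # P014T, block KTOP: the numbers of one curve -/

set_option linter.all false

open NumberField
open scoped Classical

noncomputable section

namespace Vale.Agent.P014T.Kt

open Vale.Agent.P014 (realPeriod torsionOrder shaPrimary)
open Vale.Agent.P022 (Qb GQ IsConj)
open Vale.Agent.P022D.W (dec)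
open P004N (cE)
open P004N.T8 (inc)
open P004N.H169 (IsLh)
open P004M.TE (Pt ga)
open Top (sI Dis El)
open Lc
open P025H816 (tors)
open Kx (tl Pl Sh a2)

variable {A B : ℤ} {S : Finset ℕ} {P : ℕ → Ideal (𝓞 Qb)} {c : GQ}

theorem val_prod {f : ℕ → ℚ} (S : Finset ℕ) (h : ∀ p ∈ S, f p ≠ 0) :
    padicValRat 2 (∏ p ∈ S, f p) = ∑ p ∈ S, padicValRat 2 (f p) := by
  induction S using Finset.induction_on with
  | empty => simp
  | insert q S m ih =>
    have k := fun p a => h p (Finset.mem_insert_of_mem a)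
    rw [Finset.prod_insert m, Finset.sum_insert m, padicValRat.mul (h q (Finset.mem_insert_self _ _))
      (Finset.prod_ne_zero_iff.2 k), ih k]

theorem sha_pow (E : WeierstrassCurve ℚ) (h : Finite (shaPrimary E 2)) :
    ∃ k, Nat.card (shaPrimary E 2) = 2 ^ k := by
  have : Finite (AddCommGroup.primaryComponent (P014.Sha E) 2) := h
  have := Fact.mk Nat.prime_two
  exact (IsPGroup.iff_card (G := Multiplicative (AddCommGroup.primaryComponent (P014.Sha E) 2))).1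
    fun x => x.toAdd.2.imp fun k a => Subtype.ext a

theorem a2_le (hD : El A B) (hc : IsConj c) : a2 A B c ≤ 2 * Bt.p0 A B := by
  obtain ⟨g, G⟩ := Bt.ex_gp hD hc
  have c4 : Nat.card (tors (Pt A B) 2) = 4 := P004M.TE.card_two two_ne_zero (Bt.hq hD)
  have d4 := Bt.rel_card (Bt.Ac A B c) (tors (Pt A B) 2)
  rw [c4, show Nat.card ↥(Bt.Ac A B c ⊓ tors (Pt A B) 2) = a2 A B c from Nat.card_congr
    (Equiv.subtypeEquivRight fun y => ⟨fun a => ⟨a.2, a.1.2⟩,
      fun a => ⟨⟨⟨1, by rw [pow_one]; exact a.1⟩, a.2⟩, a.1⟩⟩)] at d4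
  have k : (Bt.Ac A B c).relIndex (tors (Pt A B) 2) = 1 → 4 * A ^ 3 + 27 * B ^ 2 < 0 :=
    fun b => (Bt.real_two hD hc G).1 fun Q hQ => (AddSubgroup.relIndex_eq_one.1 b hQ).2
  generalize (Bt.Ac A B c).relIndex (tors (Pt A B) 2) = u at *
  rw [Bt.p0]
  rcases u with _ | _ | u
  · omega
  · rw [if_pos (k rfl)]; omega
  · split_ifs <;> nlinarith

/-- the exponent at `p` -/
def vp (A B : ℤ) (p : ℕ) : ℕ := padicValNat 2 (tm (Wq (sI A B)) p * np (sI A B) p)

theorem one (h : Pl A B S P) (hc : IsConj c) {r : ℕ} {v : ℤ} (d : Dis (sI A B) S r v) :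
    ∃ (L : ℂ → ℂ) (Q : Fin r → (Wq (sI A B)).toAffine.Point) (q : ℚ) (σ τ w : ℕ),
      IsLh (inc (∏ p ∈ S, p) (cE (Wq (sI A B)))) L ∧ analyticOrderAt L 1 = r ∧
      IsBasisModTorsion (Wq (sI A B)) Q ∧ q ≠ 0 ∧ iteratedDeriv r L 1 / (r.factorial : ℂ) =
        q * (realPeriod (Wq (sI A B)) * regulator (Wq (sI A B)) Q : ℝ) ∧
      Sh A B S c (2 ^ σ) ∧ tl A B ⊤ = 2 ^ τ ∧ ∏ p ∈ S.erase 2, tl A B (dec (P p)) = 2 ^ w ∧
      padicValRat 2 q + 1 + 2 * τ = v + σ + vp A B 2 + w := by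
  obtain ⟨L, Q, ρ, a1, a2, a3, a4, a5, rfl, a6⟩ := d
  have D : (sI A B).Δ ≠ 0 := sh_ne h.disc
  have := ell D
  have m : Sm.Md (Wq (sI A B)) A B 1 0 0 0 := md_sh A B
  obtain ⟨σ, hσ⟩ := sha_pow _ a4
  have t0 : (torsionOrder (Wq (sI A B)) : ℚ) ≠ 0 := Nat.cast_ne_zero.2 (Sm.tors_pos _).ne'
  have n : ∀ p ∈ S, ((tm (Wq (sI A B)) p * np (sI A B) p : ℕ) : ℚ) ≠ 0 ∧ (p : ℚ) ≠ 0 := fun p a =>
    have := Fact.mk (h.ov p a).1
    ⟨Nat.cast_ne_zero.2 (tn_ne p D), Nat.cast_ne_zero.2 this.out.ne_zero⟩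
  have n' := fun p a => div_ne_zero (n p a).1 (n p a).2
  have n0 := Finset.prod_ne_zero_iff.2 n'
  have s0 : (2 : ℚ) ^ σ ≠ 0 := by positivity
  have v2 : padicValRat 2 2 = 1 := padicValRat.self one_lt_two
  refine ⟨L, Q, ρ * 2 ^ σ * (∏ p ∈ S, ((tm (Wq (sI A B)) p * np (sI A B) p : ℕ) : ℚ) / p) /
    torsionOrder (Wq (sI A B)) ^ 2, σ, _, ∑ p ∈ S.erase 2, vp A B p, a1, a2, a3,
    div_ne_zero (mul_ne_zero (mul_ne_zero a5 s0) n0) (pow_ne_zero _ t0), ?_, fun T R l k => ?_,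
    Bt.card_ag m, ?_, ?_⟩
  · rw [a6, hσ]
    push_cast
    ring
  · refine (Sh.card_sha m (fun l a b => by_contra fun z => ?_) hc k.ov).symm.trans hσ
    exact ((Nat.prime_iff_prime_int.1 a).dvd_or_dvd b).elim (fun b => z (((Nat.prime_dvd_prime_iff_eq
      a Nat.prime_two).1 (by exact_mod_cast b)) ▸ k.two)) (k.bad l a z)
  · rw [← Finset.prod_pow_eq_pow_sum]
    exact Finset.prod_congr rfl fun p a => tl_odd D m (h.ov p (Finset.mem_of_mem_erase a))
      (Finset.ne_of_mem_erase a)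
  · rw [padicValRat.div (mul_ne_zero (mul_ne_zero a5 s0) n0) (pow_ne_zero _ t0),
      padicValRat.mul (mul_ne_zero a5 s0) n0, padicValRat.mul a5 s0, padicValRat.pow,
      padicValRat.pow, v2, val_prod _ n', ← Finset.add_sum_erase _ _ h.two,
      Finset.sum_congr rfl (g := fun p => (vp A B p : ℤ)) fun p a => by
        have b := Finset.mem_of_mem_erase a
        have := Fact.mk (h.ov p b).1
        rw [padicValRat.div (n p b).1 (n p b).2, padicValRat.of_nat, padicValRat.of_nat,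
          padicValNat_primes (Finset.ne_of_mem_erase a).symm, Nat.cast_zero, sub_zero, vp],
      padicValRat.div (n 2 h.two).1 (n 2 h.two).2, padicValRat.of_nat, padicValRat.of_nat,
      padicValRat.of_nat, padicValNat.self one_lt_two, vp]
    push_cast
    ring

end Vale.Agent.P014T.Kt
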