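import Vale.Agent.P014T.Kt.St
import Vale.Agent.P014T.Kt.One
import Vale.Agent.P014T.Kx.Kx
import Vale.Agent.P014T.An.Mel
import Vale.Agent.P004T.Top

/-! # P014T, block KTOP: the count -/

set_option linter.all false

open NumberField
open scoped Classical

noncomputable section

namespace Vale.Agent.P014T.Kt

open Vale.Agent.P022 (Qb GQ IsConj)
open Vale.Agent.P022D.W (dec)
open Vale.Agent.P022E.GW (Ov)
open Vale.Agent.P004S.Ga (K)
open P004F (Crv Fld)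
open P004F.Qx (Fk FG)
open P004K (RC1 RC2)
open P004T (ds)
open P004M.TE (Pt ga)
open Top (sI Dis El)
open Lc Kx
open Wm (Fx)

theorem prod_S' (e : Crv) : ∃ m, Nat.Coprime 2 m ∧ e.S'.prod = 2 * m :=
  ⟨_, Nat.coprime_list_prod_right_iff.2 fun p h =>
    let ⟨a, b⟩ := ((e.nd.filter _).mem_erase_iff).1 h
    (Nat.coprime_primes Nat.prime_two (e.ov p (List.mem_filter.1 b).1).1).2 a.symm,
    (List.prod_erase (List.mem_filter.2 ⟨e.two, by simpa using e.ok.odd.not_two_dvd_nat⟩)).symm⟩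

theorem fk_hp (fg : FG) {e : Crv} (b : Fld e) {T : Finset GQ} (hT : b.Tv e.δ T) :
    Fk (e.P 2) (e.S'.prod ^ 2) (hp b T e.δ) := by
  obtain ⟨m, om, hR⟩ := prod_S' e
  have o := e.ov 2 e.two
  have k0 : e.S'.prod ^ 2 ≠ 0 := by
    rw [hR]
    rintro z
    simp_all
  have z := fun y (r : ℤ) h => one_mul (e.S'.prod ^ 2) ▸ fk_mul fg e.par.disc o k0
    (dvd_pow ⟨m, hR⟩ two_ne_zero) (y := y) h 0 (one_dvd r)
  obtain ⟨g, hg, -⟩ := hT.2 1 (one_mem _)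
  refine Finset.sum_induction_nonempty _ _ (fun y y' a a' => ?_) ⟨g, hg.1⟩ fun g h => z _ _
    (b.qx _ e.ok.one.le (e.ok.cop.symm.mul_right (Nat.coprime_list_prod_right_iff.2 fun p h =>
      ((e.ov p (List.mem_filter.1 h).1).1.coprime_iff_not_dvd.2
        (by simpa using (List.mem_filter.1 h).2)).symm)) g (hT.1 g h) 2
      (List.mem_filter.2 ⟨e.two, by simpa using e.ok.odd.not_two_dvd_nat⟩))
  simpa using (((fg _ _ e.par.disc _ o.2.1 fun z => by simpa [z] using o.2.2).2.2.2.2.2 _ k0).1 _ _ a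
    (z _ (-1) a')).1

theorem ex_P {e : Crv} (b : Fld e) : ∃ P : ℕ → Ideal (𝓞 Qb), (∀ p ∈ e.S, P p = e.P p) ∧
    ∀ p ∈ e.S.toFinset ∪ b.δ'.primeFactors, Ov p (P p) := by
  choose! Q hQ using fun (q : ℕ) (h : q.Prime) => P004R.Mu.ex_pl h
  refine ⟨fun p => if p ∈ e.S then e.P p else Q p, fun p h => if_pos h, fun p h => ?_⟩
  by_cases k : p ∈ e.S
  · simpa only [if_pos k] using e.ov p k
  · simpa only [if_neg k] using hQ p (Nat.prime_of_mem_primeFactors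
      ((Finset.mem_union.1 h).resolve_left (mt List.mem_toFinset.1 k)))

theorem pl_tw {A B d : ℤ} {S S' : Finset ℕ} {P : ℕ → Ideal (𝓞 Qb)} (h : Pl A B S P) (d0 : d ≠ 0)
    (l : S ⊆ S') (o : ∀ p ∈ S', Ov p (P p)) (k : ∀ p : ℕ, p.Prime → p ∣ d.natAbs → p ∈ S') :
    Pl (A * d ^ 2) (B * d ^ 3) S' P := by
  have e : 4 * (A * d ^ 2) ^ 3 + 27 * (B * d ^ 3) ^ 2 = d ^ 6 * (4 * A ^ 3 + 27 * B ^ 2) := by ring
  refine ⟨e ▸ mul_ne_zero (pow_ne_zero _ d0) h.disc, o, l h.two, fun p a n z => ?_⟩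
  have q := Nat.prime_iff_prime_int.1 a
  exact (q.dvd_or_dvd (e ▸ z)).elim (fun z => n (k p a (Int.natCast_dvd.1 (q.dvd_of_dvd_pow z))))
    (h.bad p a (mt (l ·) n))

/-- the two twists -/
theorem pls {e : Crv} (b : Fld e) {A B A' B' : ℤ} (hA : A = e.A * ds e.δ ^ 2)
    (hB : B = e.B * ds e.δ ^ 3) (hA' : A' = A * (-b.δ') ^ 2) (hB' : B' = B * (-b.δ') ^ 3) :
    ∃ P, (∀ p ∈ e.S, P p = e.P p) ∧ Pl A B e.S.toFinset P ∧
      Pl A' B' (e.S.toFinset ∪ b.δ'.primeFactors) P := by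
  obtain ⟨P, a, o⟩ := ex_P b
  have o' := fun p h => o p (Finset.mem_union_left _ h)
  have n := (P004T.ds_spec e.ok.odd).2
  have p1 : Pl A B e.S.toFinset P := hA ▸ hB ▸ pl_tw ⟨e.par.disc, o', List.mem_toFinset.2 e.two,
    fun l h k => (e.bad l h (mt List.mem_toFinset.2 k)).2.1⟩
    (Int.natAbs_pos.1 (n.symm ▸ e.ok.one.le)) subset_rfl o' fun p h d => List.mem_toFinset.2
      (by_contra fun k => (e.bad p h k).1 (Dvd.dvd.mul_left (n ▸ d) _))
  exact ⟨P, a, p1, hA' ▸ hB' ▸ pl_tw p1 (neg_ne_zero.2 (Int.natCast_ne_zero.2 b.pos.ne'))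
    Finset.subset_union_left o fun p h d =>
      Finset.mem_union_right _ (h.mem_primeFactors (by simpa using d) b.pos.ne')⟩

theorem nrm_int {N : ℤ} (h : N ≠ 0) : ‖(N : K)‖ * 2 ^ padicValInt 2 N = 1 := by
  rw [← Rat.cast_intCast, Padic.eq_padicNorm, padicNorm.eq_zpow_of_nonzero (Int.cast_ne_zero.2 h),
    padicValRat.of_int]
  simp

/-- **the count** -/
theorem cnt (kx : KX) (fg : FG) (r1 : RC1) (r2 : RC2) (kan : KAN) {e : Crv} {b : Fld e} (ha : b.Anc)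
    {T : Finset GQ} (hT : b.Tv e.δ T) {A B A' B' : ℤ} (hA : A = e.A * ds e.δ ^ 2)
    (hB : B = e.B * ds e.δ ^ 3) (hA' : A' = A * (-b.δ') ^ 2) (hB' : B' = B * (-b.δ') ^ 3) {v v' : ℤ}
    (d : Dis (sI A B) e.S.toFinset 1 v) (d' : Dis (sI A' B') (e.S.toFinset ∪ b.δ'.primeFactors) 0 v') :
    v + v' ≤ 0 := by
  obtain ⟨P, hP, p1, p0⟩ := pls b hA hB hA' hB'
  obtain ⟨L, Q, q, σ, τ, w, a1, a2, a3, a4, a5, a6, a7, a8, a9⟩ := one p1 b.cc d
  obtain ⟨L', Q', q', σ', τ', w', b1, b2, b3, b4, b5, b6, b7, b8, b9⟩ := one p0 b.cc d'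
  have D : (sI A B).Δ ≠ 0 := sh_ne p1.disc
  have D' : (sI A' B').Δ ≠ 0 := sh_ne p0.disc
  have := ell D
  have := ell D'
  have h : Sm.Md (Wq (sI A B)) A B 1 0 0 0 := md_sh A B
  have fin : Finite (Fx A' B' ⊤) := by
    have := Sm.fin_tors (Wq (sI A' B'))
    have h' : Sm.Md (Wq (sI A' B')) A' B' 1 0 0 0 := md_sh A' B'
    exact .of_surjective (fun x : AddCommGroup.torsion _ => Sm.eqv h' x.1) fun y =>
      ⟨⟨_, Cn.basis_zero.1 b3 ((Sm.eqv h').symm y)⟩, AddEquiv.apply_symm_apply _ _⟩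
  obtain ⟨t, t', n, ht, ht', fk, fx, tor, eq⟩ := kan e b T A B A' B' h L L' Q hT hA hB hA' hB' a1 a2
    b1 a3 fin
  obtain ⟨m, om, hR⟩ := prod_S' e
  have m0 : m ≠ 0 := by
    rintro rfl
    simp at om
  obtain ⟨π, hπ⟩ : ∃ π, Bt.p0 A B = 2 ^ π := by
    rw [Bt.p0]
    split_ifs
    exacts [⟨1, rfl⟩, ⟨0, rfl⟩]
  rw [iteratedDeriv_one, Nat.factorial_one, Nat.cast_one, div_one] at a5
  rw [iteratedDeriv_zero, Nat.factorial_zero, Nat.cast_one, div_one, Cn.reg_zero, mul_one] at b5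
  have E : (2 * 2 ^ π * (2 * m) ^ 4 * (q * q') : ℚ) = (n * nd b : ℤ) ^ 2 := by
    have x1 := ((An.ord_le (a1.1 1 An.m1)).2.1.1 a2).2
    have x2 := (An.ord_le (b1.1 1 An.m1)).1.1 b2
    rw [a5, b5, hR, hπ, Complex.ofReal_mul _ (P014.realPeriod _)] at eq
    rw [a5] at x1
    rw [b5] at x2
    have := mul_right_cancel₀ (mul_ne_zero (right_ne_zero_of_mul x1) (right_ne_zero_of_mul x2))
      (a := ((2 * 2 ^ π * (2 * m) ^ 4 * (q * q') : ℚ) : ℂ)) (c := (n * nd b) ^ 2) (by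
        rw [← eq]; push_cast; ring)
    exact_mod_cast this
  have mq : (m : ℚ) ≠ 0 := Nat.cast_ne_zero.2 m0
  have N0 : n * nd b ≠ 0 := fun z => by
    rw [z] at E
    simp [m0, a4, b4] at E
  have V := congrArg (padicValRat 2) E
  rw [padicValRat.mul (by positivity) (mul_ne_zero a4 b4), padicValRat.mul a4 b4,
    padicValRat.mul (by positivity) (by positivity), padicValRat.mul two_ne_zero (by positivity),
    padicValRat.pow, padicValRat.pow, padicValRat.pow, padicValRat.mul two_ne_zero mq,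
    padicValRat.of_nat (n := m), padicValRat.of_int,
    padicValNat.eq_zero_of_not_dvd (Nat.prime_two.coprime_iff_not_dvd.1 om),
    show padicValRat 2 2 = 1 from padicValRat.self one_lt_two] at V
  have e2 : P 2 = e.P 2 := hP 2 e.two
  obtain ⟨ι, hι⟩ := Ah.ex_ind (p1.ov 2 p1.two)
  obtain ⟨lg, k⟩ := ex_lk D h hι
  have rt : Sm.up h (Q 0) ∈ Fx A B ⊤ := fun g _ => Sm.ga_up h g _
  let r : Fx A B (dec (P 2)) := ⟨Sm.up h (Q 0), fun g _ => rt g trivial⟩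
  let y : Fx A B (dec (P 2)) := nd b • ⟨t (Zd.pK b T), fun g a => fx g (b.le 2 e.two (e2 ▸ a))⟩
  have hy : y.1 = t (hp b T e.δ) := by rw [hp_one r1 r2 b hT, map_zsmul]; rfl
  obtain ⟨c1, c2⟩ := Cn.basis_one.1 a3
  have nt : ¬ IsOfFinAddOrder r.1 := fun z => c1 ((Sm.upF_inj h).isOfFinAddOrder_iff.1 z)
  have i0 := fun x => (Fx A B (dec (P 2))).subtype_injective.isOfFinAddOrder_iff (x := x)
  have l0 : lg r ≠ 0 := fun z => nt ((i0 _).2 ((k.ker D h hι r).1 z))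
  have l1 : 2 * lg y = (n * nd b : ℤ) * lg r := by
    have := (k.ker D h hι (2 • y - (n * nd b) • r)).2 ((i0 _).1 (by
      convert tor.zsmul (i := nd b) using 1
      show 2 • nd b • t (Zd.pK b T) - (n * nd b) • Sm.up h (Q 0) = _
      module))
    rwa [map_sub, map_nsmul, map_zsmul lg (n * nd b), sub_eq_zero, nsmul_eq_mul, zsmul_eq_mul,
      Nat.cast_two] at this
  have k0 : e.S'.prod ^ 2 ≠ 0 := by rw [hR]; positivity
  have F := fun κ => k.fk_iff hι (κ := κ) k0 ⟨m ^ 2, by rw [hR]; ring⟩ (y := y)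
    (by rw [hy, e2, fk]; exact fk_hp fg b hT)
  have n2 : ‖(2 : K)‖ = 2⁻¹ := Padic.norm_p (p := 2)
  obtain ⟨i, hi⟩ := Bt.ex_m (a := lg y) (fun z => mul_ne_zero (Int.cast_ne_zero.2 N0) l0
    (by rw [← l1, z, mul_zero])) ((F _ k0).1 (by rw [hy, e2, fk]; exact fk_hp fg b hT))
  have J := jx_one hι D h k (r₀ := r) rt nt fun x a => by
    obtain ⟨x, rfl⟩ := Sm.ex_up h fun g => a g trivial
    exact (c2 x).imp fun n z => by simpa using (Sm.up h).isOfFinAddOrder z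
  have X := kx e b ha A B A' B' t t' P _ _ _ _ i T ht ht' hP rfl rfl p1 p0 ⟨_, rt, nt⟩ fin
    (fun z => by simpa [z] using J.symm) a6 b6 (by positivity) (by positivity) hT (by
      rw [← fk, ← hy, ← e2, F _ (by positivity), Nat.cast_mul, norm_mul, ← hi, Nat.cast_pow,
        norm_pow, Nat.cast_two, n2, mul_left_comm, ← mul_pow]
      simp)
  have J' : jx A B (dec (P 2)) * 2 ^ (τ + 1 + padicValInt 2 (n * nd b)) = 2 ^ (vp A B 2 + i + 3) := by
    have u := congrArg norm l1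
    have u' := nrm_int N0
    rw [norm_mul, norm_mul, n2] at u
    rw [hR, Nat.cast_pow, Nat.cast_mul, norm_pow, norm_mul, Nat.cast_two, n2,
      Padic.norm_natCast_eq_one_iff.2 om] at hi
    rw [a7, Rat.cast_one, one_mul, Nat.cast_pow] at J
    refine Nat.cast_injective (R := ℝ) ?_
    rw [vp]
    push_cast at J ⊢
    rw [pow_add, pow_add, pow_add, pow_add, ← J]
    linear_combination (jx A B (dec (P 2)) * 2 ^ τ * 2 : ℝ) * (-4 * 2 ^ padicValInt 2 (n * nd b) * hi +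
      8 * 2 ^ i * 2 ^ padicValInt 2 (n * nd b) * u + 8 * 2 ^ i * ‖lg r‖ * u')
  have Y : 2 ^ (2 * (i + 1) + 2 * τ' + 2 * (τ + 1 + padicValInt 2 (n * nd b))) ≤
      2 ^ (π + 1 + 2 * (vp A B 2 + i + 3) + σ + σ' + w + w') := by
    rw [b7, a8, b8] at X
    calc _ = 4 ^ (i + 1) * (2 ^ τ') ^ 2 * (2 ^ (τ + 1 + padicValInt 2 (n * nd b))) ^ 2 := by
          rw [show (4 : ℕ) ^ (i + 1) = 2 ^ (2 * (i + 1)) from (pow_mul 2 2 _).symm]; ring
      _ ≤ _ := Nat.mul_le_mul_right _ X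
      _ ≤ 2 * 2 ^ π * jx A B (dec (P 2)) ^ 2 * 2 ^ σ * 2 ^ σ' * 2 ^ w * 2 ^ w' * _ := by
          gcongr
          exact hπ ▸ a2_le p1.disc b.cc
      _ = 2 * 2 ^ π * (jx A B (dec (P 2)) * 2 ^ (τ + 1 + padicValInt 2 (n * nd b))) ^ 2 * 2 ^ σ *
          2 ^ σ' * 2 ^ w * 2 ^ w' := by ring
      _ = _ := by rw [J']; ring
  have Z : vp A' B' 2 = vp A B 2 := by
    rw [hA', hB']
    exact congrArg _ (v2_sh (by have := b.adm.m8; omega) p1.disc)
  have := (Nat.pow_le_pow_iff_right one_lt_two).1 Y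
  omega

end Vale.Agent.P014T.Kt
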