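import Vale.Agent.P014T.Kt.Cnt
import Vale.Agent.P014T.Pr.Pair
import Vale.Agent.P014T.Lk.Mod
import Vale.Agent.P014T.Dg.Pz
import Vale.Agent.P004Z.Ar.Aro
import Vale.Agent.P004Z.Fin.Int

/-! # P014T, block KTOP: row KK -/

set_option linter.all false

open NumberField Real
open scoped Classical NumberTheorySymbols

noncomputable section

namespace Vale.Agent.P014T.Kt

open P004F (Crv Fld PAT KG)
open P004F.Qx (FG)
open P004K (RC1 RC2)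
open P004T (ds ds_spec)
open P004N (NF)
open P004Z (eps)
open Top Lc
open Kx (KX Pl)
open An (M0 M1)

/-- the analytic rank of a twist -/
theorem ar (e : Crv) {δ : ℕ} (ho : Odd δ) (hs : Squarefree δ) (hc : e.N.Coprime δ) {A B : ℤ}
    (hA : A = e.A * ds δ ^ 2) (hB : B = e.B * ds δ ^ 3) (hD : El A B) :
    (Z.L0 e.a δ ≠ 0 → Ar A B 0) ∧ ∀ ε, NF e.N e.G (fun n => (e.a n : ℝ)) ε →
      ε * (eps δ * J(e.N | δ) : ℤ) = 1 → Zd.L1d e.a δ ≠ 0 → Ar A B 1 := by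
  subst hA hB
  have := ell (sh_ne e.par.disc)
  have := ell (sh_ne hD)
  obtain ⟨S, -, a, k⟩ := Lk.at_fin (md_sh e.A e.B) e.rn e.par.mat
  have k := Lk.At.ds (md_sh e.A e.B) ho (md_sh _ _) k a
  have p : (2 * π : ℂ) ≠ 0 := by simp
  refine ⟨fun h => ?_, fun ε n s h => ?_⟩
  · obtain ⟨G, r⟩ := Lk.rn_tw e.rn ho hs hc
    obtain ⟨M, m, -⟩ := Lk.rn_lh r
    obtain ⟨L, l⟩ := Lk.ex_ell r k m
    exact ⟨L, l, (Lk.val r k l).1.2 (mul_ne_zero p h)⟩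
  · obtain ⟨G, n⟩ := Lk.nf_tw n ho hs hc
    have r := P004T.rn_of_nf n
    obtain ⟨M, m, -⟩ := Lk.rn_lh r
    obtain ⟨L, l⟩ := Lk.ex_ell r k m
    refine ⟨L, l, (Lk.val r k l).2.1.2 ⟨by_contra fun z => ?_, mul_ne_zero p h⟩⟩
    have := (An.sign r.pos (Lk.rn_gd r) r.qe n.al).1 z
    rw [neg_eq_neg_one_mul, jacobiSym.mul_left, ← eps, s] at this
    norm_num at this

theorem bd_of {A B : ℤ} {S P} (h : Pl A B S P) : Bd (sI A B) S := by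
  refine ⟨fun p a => (h.ov p a).1, fun p a d => by_contra fun n => ?_⟩
  have q := Nat.prime_iff_prime_int.1 a
  rw [show 2 * (sI A B).Δ = -(2 ^ 5 * (4 * A ^ 3 + 27 * B ^ 2)) by
    simp only [sI, WeierstrassCurve.Δ, WeierstrassCurve.b₂, WeierstrassCurve.b₄,
      WeierstrassCurve.b₆, WeierstrassCurve.b₈]; ring, dvd_neg] at d
  exact (q.dvd_or_dvd d).elim (fun d => n (((Nat.prime_dvd_prime_iff_eq a Nat.prime_two).1
    (by exact_mod_cast q.dvd_of_dvd_pow d)) ▸ h.two)) (h.bad p a n)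

/-- **row KK** -/
theorem kk {C : (ℕ → ℤ) → Prop} (hC : ∀ a, C a) (pair : PAIR C) (modn : MODN) (twa : TWA) (inv : INV)
    (pat : PAT) (kg : KG) (gz : Zd.GZF) (kan : KAN) (kx : KX) (fg : FG) (r1 : RC1) (r2 : RC2) :
    KK := by
  intro A B hD S₀ hS
  obtain ⟨N, G, a, rn, fa⟩ := modn A B hD
  obtain ⟨ε, nf⟩ := P004Z.Ar.nf_of_rn rn
  obtain ⟨s, s1, rfl⟩ : ∃ s : ℤ, (s = 1 ∨ s = -1) ∧ ε = s :=
    nf.sgn.elim (fun h => ⟨1, .inl rfl, by simpa⟩) fun h => ⟨-1, .inr rfl, by simpa⟩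
  obtain ⟨_, _, k⟩ := pair N G a rn (hC a)
  obtain ⟨e, b, rfl, rfl, -, -, k1, k2, k3, k4, -, -, ha, -, -, k5⟩ := k S₀ s (8 * ∏ p ∈ S₀, p) 0 hS s1
    (mul_ne_zero (by norm_num) (Finset.prod_ne_zero_iff.2 fun p h => (hS p h).ne_zero))
  obtain rfl : G = e.G := funext fun z => (rn.qe z).unique (e.rn.qe z)
  have sg : (s : ℝ) * (eps e.δ * J(e.N | e.δ) : ℤ) = 1 := by
    rw [k3, k4]
    rcases s1 with rfl | rfl <;> simp
  obtain ⟨Y, y1, y2⟩ := pat e b ha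
  obtain ⟨T, hT, nt⟩ : ∃ T, b.Tv e.δ T ∧ ¬ IsOfFinAddOrder (Zd.pK b T) := by
    by_contra! z
    exact kg Y (y1 k5) (y2 z)
  obtain ⟨V, hV⟩ := P004Z.Ar.ex_plc P004Z.Fin.ext
  obtain ⟨c, c0, hc⟩ := Dg.ex_cov e.par.lat
  have g := gz e b s c V T nf.al sg hc hV hT
  have g0 := g ▸ Complex.ofReal_ne_zero.2 (mul_ne_zero (mul_ne_zero (mul_ne_zero two_ne_zero
    (pow_ne_zero 2 (Nat.cast_ne_zero.2 e.par.wpos.ne'))) c0.ne') (mt (Cn.hh_zero (Gl.pl_vq hV)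
      (Wm.hD_Qb e.par.disc)).1 nt))
  obtain ⟨P, -, p1, p0⟩ := pls b rfl rfl rfl rfl
  obtain ⟨d4, dn⟩ := ds_spec e.ok.odd
  have m8 := b.adm.m8
  have d8 : ds e.δ % 8 = 1 := by
    obtain ⟨x, hx⟩ := (Dvd.intro _ (Nat.cast_mul 8 _).symm).trans k2
    push_cast at hx
    omega
  have d8' : ds e.δ * -b.δ' % 8 = 1 := by
    rw [Int.mul_emod, d8, show -(b.δ' : ℤ) % 8 = 1 by omega]
    rfl
  have cop : ∀ p : ℕ, p.Prime → p ∣ e.N * e.δ → ¬ p ∣ b.δ' := fun p h d d' =>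
    (e.bad p h (b.out_S h d')).1 d
  have c1 : e.δ.Coprime b.δ' := Nat.coprime_of_dvd fun p h d => cop p h (d.mul_left _)
  have sq : Squarefree (e.δ * b.δ') := (Nat.squarefree_mul c1).2 ⟨e.ok.sq, b.adm.sq⟩
  have od : Odd (e.δ * b.δ') := e.ok.odd.mul (Nat.odd_iff.2 (by omega))
  have na : (ds e.δ * -b.δ').natAbs = e.δ * b.δ' := by simp [Int.natAbs_mul, dn]
  have de : ds (e.δ * b.δ') = ds e.δ * -b.δ' := by
    obtain ⟨x, y⟩ := ds_spec od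
    omega
  have d0 : ds e.δ ≠ 0 := by omega
  have ae : Ae A B e.A e.B := (fa.union e.par.mat).subset fun p h => by
    by_contra! z
    simp only [Set.mem_union, Set.mem_setOf_eq, h.1, true_and, not_or, not_not] at z
    exact h.2 (z.1.trans z.2.symm)
  have np : ∀ p ∈ S₀, ¬ (p : ℤ) ∣ ds e.δ := fun p h d => (hS p h).one_lt.ne' (Nat.dvd_one.1 (by
    have := dvd_sub d (((Int.natCast_dvd_natCast.2 ((Finset.dvd_prod_of_mem _ h).mul_left 8))).trans k2)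
    rw [sub_sub_cancel] at this
    exact_mod_cast this))
  refine ⟨_, _, _, _, _, _, ⟨Int.squarefree_natAbs.1 (dn.symm ▸ e.ok.sq), d8⟩,
    ⟨Int.squarefree_natAbs.1 (na.symm ▸ sq), d8'⟩, ?_, fun p h => ⟨np p h, fun d =>
      ((Nat.prime_iff_prime_int.1 (hS p h)).dvd_or_dvd d).elim (np p h) fun d =>
        b.out_S (hS p h) (Int.natCast_dvd_natCast.1 (dvd_neg.1 d)) (k1 p h)⟩, p1.disc, p0.disc,
    twa _ _ _ _ _ hD e.par.disc d0 ae, ?_,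
    (ar e e.ok.odd e.ok.sq e.ok.cop rfl rfl p1.disc).2 s nf sg
      (right_ne_zero_of_mul (left_ne_zero_of_mul g0)),
    (ar e od sq (e.ok.cop.mul_right (Nat.coprime_of_dvd fun p h d => cop p h (d.mul_right _)))
      (by rw [de]; ring) (by rw [de]; ring) p0.disc).1 (right_ne_zero_of_mul g0),
    fun v v' ⟨_, u1, u2⟩ ⟨_, w1, w2⟩ => cnt kx fg r1 r2 kan ha hT rfl rfl rfl rfl
      ((inv _ _ _ 1 0 0 0 _ _ _ _ (sh_ne p1.disc) (md_sh _ _) u1 (bd_of p1)).1 u2)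
      ((inv _ _ _ 1 0 0 0 _ _ _ _ (sh_ne p0.disc) (md_sh _ _) w1 (bd_of p0)).1 w2)⟩
  · have := b.pos
    have := sq_pos_of_ne_zero d0
    nlinarith
  · convert twa _ _ _ _ (ds e.δ * -b.δ') hD e.par.disc (by omega) ae using 1 <;> ring

end Vale.Agent.P014T.Kt
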