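import Vale.Agent.P014T.St
import Vale.Agent.P014T.Zd.Exp
import Vale.Agent.P014T.Kx.Tr1

/-! # P014T, block KTOP: words and rows -/

set_option linter.all false

open scoped Classical

noncomputable section

namespace Vale.Agent.P014T.Kt

open Vale.Agent.P014 (realPeriod)
open P004F (Crv Fld)
open P004F.Qx (Fk)
open P004T (ds)
open P004N (cE)
open P004N.T8 (inc)
open P004N.H169 (IsLh)
open P004M.TE (Pt)
open Top (sI)
open Lc (Wq)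
open Wm (Fx)
open Kx (nd Tw)
open Zd (pK)

/-- the analytic half -/
def KAN : Prop := ∀ (e : Crv) (b : Fld e) T (A B A' B' : ℤ) (h : Sm.Md (Wq (sI A B)) A B 1 0 0 0)
  L L' (Q : Fin 1 → (Wq (sI A B)).toAffine.Point), b.Tv e.δ T →
  A = e.A * ds e.δ ^ 2 → B = e.B * ds e.δ ^ 3 → A' = A * (-b.δ') ^ 2 → B' = B * (-b.δ') ^ 3 →
  IsLh (inc (∏ p ∈ e.S.toFinset, p) (cE (Wq (sI A B)))) L → analyticOrderAt L 1 = 1 →
  IsLh (inc (∏ p ∈ e.S.toFinset ∪ b.δ'.primeFactors, p) (cE (Wq (sI A' B')))) L' →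
  IsBasisModTorsion (Wq (sI A B)) Q → Finite (Fx A' B' ⊤) →
  ∃ (t : Pt e.A e.B ≃+ Pt A B) (t' : Pt A B ≃+ Pt A' B') (n : ℤ), Tw (ds e.δ) t ∧ Tw (-b.δ') t' ∧
    (∀ κ y, Fk (e.P 2) κ (t y) ↔ Fk (e.P 2) κ y) ∧ t (pK b T) ∈ Fx A B b.Γ ∧
    IsOfFinAddOrder (2 • t (pK b T) - n • Sm.up h (Q 0)) ∧
    2 * Bt.p0 A B * (e.S'.prod : ℂ) ^ 4 * (deriv L 1 * L' 1) = (n * nd b) ^ 2 *
      (realPeriod (Wq (sI A B)) * regulator (Wq (sI A B)) Q * realPeriod (Wq (sI A' B')) : ℝ)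

end Vale.Agent.P014T.Kt
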